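import Mathlib
import Vale.Agent.Lib.P335.Defs
import Vale.Agent.Lib.P335.helper26.BipDefs

/-!
P335, graph case: a vertex triple of the graph system is a three-row margin system.

For three vertices `φ 0, φ 1, φ 2` of the graphs with degree vector `d`, the class of graphs that
agree with a given `G0` on all pairs of vertices outside the triple is the image of an injective
map from the three-row margin system with `n + 1` columns: the columns `Fin.castSucc w`
(`w` outside the triple) record the edges between the triple and `w`, and the last column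
records, in row `i`, that the internal edge opposite to `φ i` is absent.  Resampling a vertex
pair inside the triple corresponds to resampling the two rows, so the three-row inequality
transfers to vertex triples.
-/

namespace Vale.Agent.Lib.P335.H98

open Finset
open Vale.Agent.Lib.P335 Vale.Agent.Lib.P335.Bip

section generic

variable {Ω Ω' K K' : Type*} [Fintype Ω] [Fintype Ω'] [DecidableEq K] [DecidableEq K']

lemma cexp_apply (κ : Ω → K) (f : Ω → ℝ) (x : Ω) :
    cexp κ f x = (∑ y ∈ univ.filter (fun y => κ y = κ x), f y) /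
      ((univ.filter (fun y => κ y = κ x)).card : ℝ) := rfl

/-- the class of `ι z` is the image of the class of `z` -/
lemma class_image [DecidableEq Ω] (κ : Ω → K) (κ' : Ω' → K') (ι : Ω' → Ω) (z : Ω')
    (hcl : ∀ y : Ω, κ y = κ (ι z) ↔ ∃ z', κ' z' = κ' z ∧ ι z' = y) :
    univ.filter (fun y => κ y = κ (ι z)) = (univ.filter (fun z' => κ' z' = κ' z)).image ι := by
  ext y
  simp only [mem_filter, mem_univ, true_and, mem_image]
  exact hcl y

/-- transfer of a conditional expectation along an injective map whose image is a union of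
classes -/
lemma cexp_transfer [DecidableEq Ω] (κ : Ω → K) (κ' : Ω' → K') (ι : Ω' → Ω)
    (hι : Function.Injective ι) (z : Ω')
    (hcl : ∀ y : Ω, κ y = κ (ι z) ↔ ∃ z', κ' z' = κ' z ∧ ι z' = y) (f : Ω → ℝ) :
    cexp κ f (ι z) = cexp κ' (fun z' => f (ι z')) z := by
  rw [cexp_apply, cexp_apply, class_image κ κ' ι z hcl, Finset.sum_image,
    Finset.card_image_of_injective _ hι]
  intro a _ b _ h
  exact hι h

/-- the sum over a class that is the image of an injective map -/
lemma sum_class [DecidableEq Ω] (κ : Ω → K) (ι : Ω' → Ω) (hι : Function.Injective ι) (x0 : Ω)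
    (hcl : ∀ y : Ω, κ y = κ x0 ↔ ∃ z, ι z = y) (H : Ω → ℝ) :
    ∑ y ∈ univ.filter (fun y => κ y = κ x0), H y = ∑ z, H (ι z) := by
  have h1 : univ.filter (fun y => κ y = κ x0) = univ.image ι := by
    ext y
    simp only [mem_filter, mem_univ, true_and, mem_image]
    exact hcl y
  rw [h1, Finset.sum_image]
  intro a _ b _ h
  exact hι h

/-- an inequality between sums follows from the inequalities between the sums over each class -/
lemma sum_le_sum_of_classes (κ : Ω → K) (H1 H2 : Ω → ℝ)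
    (h : ∀ x0 : Ω, ∑ y ∈ univ.filter (fun y => κ y = κ x0), H1 y
        ≤ ∑ y ∈ univ.filter (fun y => κ y = κ x0), H2 y) :
    ∑ x, H1 x ≤ ∑ x, H2 x := by
  have hmaps : ∀ x ∈ (univ : Finset Ω), κ x ∈ univ.image κ :=
    fun x _ => mem_image_of_mem _ (mem_univ x)
  rw [← Finset.sum_fiberwise_of_maps_to hmaps H1, ← Finset.sum_fiberwise_of_maps_to hmaps H2]
  apply Finset.sum_le_sum
  intro μ hμ
  obtain ⟨x0, -, rfl⟩ := mem_image.mp hμ
  exact h x0

end generic

section matrices

variable {m N : ℕ}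

lemma mask_eq_iff (p : Finset (Fin m)) (x y : Mat m N) :
    mask p x = mask p y ↔ ∀ i, i ∉ p → x i = y i := by
  constructor
  · intro h i hi
    have h1 := congrFun h i
    simp only [mask, hi, if_false] at h1
    exact h1
  · intro h
    funext i
    by_cases hi : i ∈ p
    · simp only [mask, hi, if_true]
    · simp only [mask, hi, if_false]
      exact h i hi

/-- double counting of the entries of a matrix -/
lemma sum_card_rows (x : Mat m N) : ∑ i, (x i).card = ∑ j, colSum x j := by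
  unfold colSum
  have h1 : ∀ i, (x i).card = ∑ j, (if j ∈ x i then 1 else 0) := by
    intro i
    rw [Finset.sum_boole]
    simp
  have h2 : ∀ j, (univ.filter (fun i => j ∈ x i)).card = ∑ i, (if j ∈ x i then 1 else 0) := by
    intro j
    rw [Finset.sum_boole]
    simp
  simp only [h1, h2]
  exact Finset.sum_comm

/-- a row with `N + 1` columns: the real columns and the last column -/
lemma card_split (s : Finset (Fin (N + 1))) :
    s.card = (univ.filter (fun w : Fin N => Fin.castSucc w ∈ s)).card +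
      (if Fin.last N ∈ s then 1 else 0) := by
  have h1 : s.card = ∑ j : Fin (N + 1), (if j ∈ s then 1 else 0) := by
    rw [Finset.sum_boole]
    simp
  rw [h1, Fin.sum_univ_castSucc, Finset.sum_boole]
  simp

end matrices

section fin3

lemma fin3_cases : ∀ i j : Fin 3, j = i ∨ j = i + 1 ∨ j = i + 2 := by decide

lemma fin3_ne1 : ∀ i : Fin 3, i + 1 ≠ i := by decide

lemma fin3_ne2 : ∀ i : Fin 3, i + 2 ≠ i := by decide

lemma fin3_ne12 : ∀ i : Fin 3, i + 1 ≠ i + 2 := by decide

lemma fin3_add11 : ∀ i : Fin 3, i + 1 + 1 = i + 2 := by decide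

lemma fin3_add12 : ∀ i : Fin 3, i + 1 + 2 = i := by decide

lemma fin3_add21 : ∀ i : Fin 3, i + 2 + 1 = i := by decide

lemma fin3_add22 : ∀ i : Fin 3, i + 2 + 2 = i + 1 := by decide

lemma fin3_absurd : ∀ i j : Fin 3, i + 1 = j + 2 → i + 2 = j + 1 → False := by decide

lemma fin3_cancel : ∀ i j : Fin 3, i + 1 = j + 1 → i = j := by decide

lemma fin3_pairs : ∀ q : Finset (Fin 3), q.card = 2 → ∃ i : Fin 3, ∀ j, j ∉ q ↔ j = i := by
  decide

lemma sum_fin3 {M : Type*} [AddCommMonoid M] (g : Fin 3 → M) (i : Fin 3) :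
    ∑ j, g j = g i + g (i + 1) + g (i + 2) := by
  rw [Fin.sum_univ_three]
  fin_cases i
  · rfl
  · show g 0 + g 1 + g 2 = g 1 + g 2 + g 0
    rw [add_comm (g 0 + g 1), add_comm (g 0), ← add_assoc, add_comm (g 2)]
  · show g 0 + g 1 + g 2 = g 2 + g 0 + g 1
    rw [add_comm (g 0 + g 1), add_assoc]

end fin3

section graph

open scoped Classical

variable {n : ℕ}

/-- the vertex triple -/
def tri (φ : Fin 3 ↪ Fin n) : Finset (Fin n) := (univ : Finset (Fin 3)).map φ

lemma mem_tri (φ : Fin 3 ↪ Fin n) (a : Fin n) : a ∈ tri φ ↔ ∃ i, φ i = a := by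
  unfold tri
  simp only [mem_map, mem_univ, true_and]

lemma apply_mem_tri (φ : Fin 3 ↪ Fin n) (i : Fin 3) : φ i ∈ tri φ :=
  (mem_tri φ (φ i)).mpr ⟨i, rfl⟩

/-- The three-row matrix of a graph: row `i` contains the column `Fin.castSucc w` for every
neighbour `w` of `φ i` outside the triple, and the last column iff the two other vertices of
the triple are not adjacent. -/
noncomputable def matOf (φ : Fin 3 ↪ Fin n) (G : SimpleGraph (Fin n)) : Mat 3 (n + 1) := fun i =>
  univ.filter (fun j : Fin (n + 1) =>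
    (∃ w : Fin n, j = Fin.castSucc w ∧ w ∉ tri φ ∧ G.Adj (φ i) w) ∨
      (j = Fin.last n ∧ ¬ G.Adj (φ (i + 1)) (φ (i + 2))))

lemma castSucc_mem_matOf (φ : Fin 3 ↪ Fin n) (G : SimpleGraph (Fin n)) (i : Fin 3) (w : Fin n) :
    Fin.castSucc w ∈ matOf φ G i ↔ w ∉ tri φ ∧ G.Adj (φ i) w := by
  unfold matOf
  simp only [mem_filter, mem_univ, true_and]
  constructor
  · rintro (⟨w', hw', h⟩ | ⟨h, -⟩)
    · rw [Fin.castSucc_inj] at hw'
      rw [hw']
      exact h
    · exact absurd h (Fin.castSucc_ne_last w)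
  · intro h
    exact Or.inl ⟨w, rfl, h⟩

lemma last_mem_matOf (φ : Fin 3 ↪ Fin n) (G : SimpleGraph (Fin n)) (i : Fin 3) :
    Fin.last n ∈ matOf φ G i ↔ ¬ G.Adj (φ (i + 1)) (φ (i + 2)) := by
  unfold matOf
  simp only [mem_filter, mem_univ, true_and]
  constructor
  · rintro (⟨w', hw', -⟩ | h)
    · exact absurd hw'.symm (Fin.castSucc_ne_last w')
    · exact h
  · intro h
    exact Or.inr h

/-- The graph of a three-row matrix over a base graph `G0`: outside the triple the edges of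
`G0`, between `φ i` and a vertex `b` outside the triple an edge iff `Fin.castSucc b` lies in
row `i`, and the edge opposite to `φ i` inside the triple iff the last column is not in
row `i`. -/
def grOf (φ : Fin 3 ↪ Fin n) (G0 : SimpleGraph (Fin n)) (z : Mat 3 (n + 1)) :
    SimpleGraph (Fin n) where
  Adj a b :=
    (a ∉ tri φ ∧ b ∉ tri φ ∧ G0.Adj a b) ∨
    (∃ i, a = φ i ∧ b ∉ tri φ ∧ Fin.castSucc b ∈ z i) ∨
    (∃ i, b = φ i ∧ a ∉ tri φ ∧ Fin.castSucc a ∈ z i) ∨
    (∃ i, ((a = φ (i + 1) ∧ b = φ (i + 2)) ∨ (a = φ (i + 2) ∧ b = φ (i + 1))) ∧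
      Fin.last n ∉ z i)
  symm := by
    constructor
    intro a b h
    rcases h with ⟨h1, h2, h3⟩ | ⟨i, h1, h2, h3⟩ | ⟨i, h1, h2, h3⟩ | ⟨i, h1 | h1, h2⟩
    · exact Or.inl ⟨h2, h1, h3.symm⟩
    · exact Or.inr (Or.inr (Or.inl ⟨i, h1, h2, h3⟩))
    · exact Or.inr (Or.inl ⟨i, h1, h2, h3⟩)
    · exact Or.inr (Or.inr (Or.inr ⟨i, Or.inr ⟨h1.2, h1.1⟩, h2⟩))
    · exact Or.inr (Or.inr (Or.inr ⟨i, Or.inl ⟨h1.2, h1.1⟩, h2⟩))
  loopless := by
    constructor
    intro a h
    rcases h with ⟨h1, h2, h3⟩ | ⟨i, h1, h2, h3⟩ | ⟨i, h1, h2, h3⟩ | ⟨i, h1 | h1, h2⟩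
    · exact G0.loopless.irrefl a h3
    · exact h2 ((mem_tri φ a).mpr ⟨i, h1.symm⟩)
    · exact h2 ((mem_tri φ a).mpr ⟨i, h1.symm⟩)
    · exact fin3_ne12 i (φ.injective (h1.1.symm.trans h1.2))
    · exact fin3_ne12 i (φ.injective (h1.2.symm.trans h1.1))

lemma grOf_adj_out (φ : Fin 3 ↪ Fin n) (G0 : SimpleGraph (Fin n)) (z : Mat 3 (n + 1))
    {a b : Fin n} (ha : a ∉ tri φ) (hb : b ∉ tri φ) :
    (grOf φ G0 z).Adj a b ↔ G0.Adj a b := by
  constructor
  · rintro (⟨-, -, h⟩ | ⟨i, h1, -, -⟩ | ⟨i, h1, -, -⟩ | ⟨i, h1 | h1, -⟩)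
    · exact h
    · exact absurd ((mem_tri φ a).mpr ⟨i, h1.symm⟩) ha
    · exact absurd ((mem_tri φ b).mpr ⟨i, h1.symm⟩) hb
    · exact absurd ((mem_tri φ a).mpr ⟨_, h1.1.symm⟩) ha
    · exact absurd ((mem_tri φ a).mpr ⟨_, h1.1.symm⟩) ha
  · intro h
    exact Or.inl ⟨ha, hb, h⟩

lemma grOf_adj_row (φ : Fin 3 ↪ Fin n) (G0 : SimpleGraph (Fin n)) (z : Mat 3 (n + 1))
    (i : Fin 3) {b : Fin n} (hb : b ∉ tri φ) :
    (grOf φ G0 z).Adj (φ i) b ↔ Fin.castSucc b ∈ z i := by
  have hi : φ i ∈ tri φ := apply_mem_tri φ i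
  constructor
  · rintro (⟨h, -, -⟩ | ⟨j, h1, -, h3⟩ | ⟨j, h1, -, -⟩ | ⟨j, h1 | h1, -⟩)
    · exact absurd hi h
    · rw [φ.injective h1]
      exact h3
    · exact absurd ((mem_tri φ b).mpr ⟨j, h1.symm⟩) hb
    · exact absurd ((mem_tri φ b).mpr ⟨_, h1.2.symm⟩) hb
    · exact absurd ((mem_tri φ b).mpr ⟨_, h1.2.symm⟩) hb
  · intro h
    exact Or.inr (Or.inl ⟨i, rfl, hb, h⟩)

lemma grOf_adj_int (φ : Fin 3 ↪ Fin n) (G0 : SimpleGraph (Fin n)) (z : Mat 3 (n + 1))
    (i : Fin 3) :
    (grOf φ G0 z).Adj (φ (i + 1)) (φ (i + 2)) ↔ Fin.last n ∉ z i := by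
  have h1 : φ (i + 1) ∈ tri φ := apply_mem_tri φ _
  have h2 : φ (i + 2) ∈ tri φ := apply_mem_tri φ _
  constructor
  · rintro (⟨h, -, -⟩ | ⟨j, -, h, -⟩ | ⟨j, -, h, -⟩ | ⟨j, h | h, h3⟩)
    · exact absurd h1 h
    · exact absurd h2 h
    · exact absurd h1 h
    · have e : i = j := fin3_cancel i j (φ.injective h.1)
      rw [e]
      exact h3
    · exact absurd (φ.injective h.2) (fun e2 => fin3_absurd i j (φ.injective h.1) e2)
  · intro h
    exact Or.inr (Or.inr (Or.inr ⟨i, Or.inl ⟨rfl, rfl⟩, h⟩))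

/-- the matrix of the graph of a matrix whose triple columns are empty -/
lemma matOf_grOf (φ : Fin 3 ↪ Fin n) (G0 : SimpleGraph (Fin n)) (z : Mat 3 (n + 1))
    (hz : ∀ i w, w ∈ tri φ → Fin.castSucc w ∉ z i) : matOf φ (grOf φ G0 z) = z := by
  funext i
  ext j
  rcases Fin.eq_castSucc_or_eq_last j with ⟨w, rfl⟩ | rfl
  · rw [castSucc_mem_matOf]
    constructor
    · rintro ⟨hw, h⟩
      exact (grOf_adj_row φ G0 z i hw).mp h
    · intro h
      have hw : w ∉ tri φ := fun hw => hz i w hw h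
      exact ⟨hw, (grOf_adj_row φ G0 z i hw).mpr h⟩
  · rw [last_mem_matOf, grOf_adj_int, not_not]

/-- the graph of the matrix of a graph that agrees with `G0` outside the triple -/
lemma grOf_matOf (φ : Fin 3 ↪ Fin n) (G0 G : SimpleGraph (Fin n))
    (hG : ∀ a b, a ∉ tri φ → b ∉ tri φ → (G.Adj a b ↔ G0.Adj a b)) :
    grOf φ G0 (matOf φ G) = G := by
  ext a b
  by_cases ha : a ∈ tri φ
  · obtain ⟨j, rfl⟩ := (mem_tri φ a).mp ha
    by_cases hb : b ∈ tri φ
    · obtain ⟨k, rfl⟩ := (mem_tri φ b).mp hb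
      rcases fin3_cases j k with rfl | rfl | rfl
      · constructor
        · intro h
          exact absurd h (SimpleGraph.irrefl _)
        · intro h
          exact absurd h (SimpleGraph.irrefl _)
      · have h1 := grOf_adj_int φ G0 (matOf φ G) (j + 2)
        have h2 := last_mem_matOf φ G (j + 2)
        rw [fin3_add21, fin3_add22] at h1 h2
        rw [h1, h2, not_not]
      · have h1 := grOf_adj_int φ G0 (matOf φ G) (j + 1)
        have h2 := last_mem_matOf φ G (j + 1)
        rw [fin3_add11, fin3_add12] at h1 h2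
        rw [SimpleGraph.adj_comm, h1, h2, not_not, SimpleGraph.adj_comm]
    · rw [grOf_adj_row φ G0 _ j hb, castSucc_mem_matOf]
      exact ⟨fun h => h.2, fun h => ⟨hb, h⟩⟩
  · by_cases hb : b ∈ tri φ
    · obtain ⟨k, rfl⟩ := (mem_tri φ b).mp hb
      rw [SimpleGraph.adj_comm, grOf_adj_row φ G0 _ k ha, castSucc_mem_matOf,
        SimpleGraph.adj_comm]
      exact ⟨fun h => h.2, fun h => ⟨ha, h⟩⟩
    · rw [grOf_adj_out φ G0 _ ha hb]
      exact (hG a b ha hb).symm

end graph

section counting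

open scoped Classical

variable {n : ℕ}

/-- the degree splits into the neighbours inside and outside `K` -/
lemma degree_eq_in_add_out (K : Finset (Fin n)) (G : SimpleGraph (Fin n)) (v : Fin n) :
    G.degree v = (K.filter (G.Adj v)).card + (Kᶜ.filter (G.Adj v)).card := by
  rw [← SimpleGraph.card_neighborFinset_eq_degree, SimpleGraph.neighborFinset_eq_filter,
    ← Finset.card_filter_add_card_filter_not (p := fun w => w ∈ K)]
  congr 1
  · congr 1
    ext w
    simp only [mem_filter, mem_univ, true_and]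
    tauto
  · congr 1
    ext w
    simp only [mem_filter, mem_univ, true_and, mem_compl]
    tauto

/-- indicator of the internal edge opposite to `φ i` -/
noncomputable def slot (φ : Fin 3 ↪ Fin n) (G : SimpleGraph (Fin n)) (i : Fin 3) : ℕ :=
  if G.Adj (φ (i + 1)) (φ (i + 2)) then 1 else 0

/-- the number of edges inside the triple -/
noncomputable def eint (φ : Fin 3 ↪ Fin n) (G : SimpleGraph (Fin n)) : ℕ := ∑ i, slot φ G i

lemma card_filter_tri (φ : Fin 3 ↪ Fin n) (P : Fin n → Prop) :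
    ((tri φ).filter P).card = ∑ i : Fin 3, (if P (φ i) then 1 else 0) := by
  unfold tri
  rw [Finset.filter_map, Finset.card_map, Finset.sum_boole]
  simp only [Nat.cast_id]
  rfl

/-- row sums of the matrix of a graph -/
lemma row_identity (φ : Fin 3 ↪ Fin n) (G : SimpleGraph (Fin n)) (i : Fin 3) :
    (matOf φ G i).card + eint φ G = G.degree (φ i) + 1 := by
  have h1 : (univ.filter (fun w : Fin n => Fin.castSucc w ∈ matOf φ G i))
      = (tri φ)ᶜ.filter (G.Adj (φ i)) := by
    ext w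
    simp only [mem_filter, mem_univ, true_and, mem_compl, castSucc_mem_matOf]
  have h2 := card_split (matOf φ G i)
  rw [h1] at h2
  have h3 := degree_eq_in_add_out (tri φ) G (φ i)
  have h4 := card_filter_tri φ (G.Adj (φ i))
  rw [sum_fin3 _ i, if_neg (SimpleGraph.irrefl G)] at h4
  have h5 : eint φ G = slot φ G i + slot φ G (i + 1) + slot φ G (i + 2) := sum_fin3 _ i
  have hs1 : slot φ G (i + 1) = if G.Adj (φ i) (φ (i + 2)) then 1 else 0 := by
    unfold slot
    rw [fin3_add11, fin3_add12]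
    exact if_congr (G.adj_comm _ _) rfl rfl
  have hs2 : slot φ G (i + 2) = if G.Adj (φ i) (φ (i + 1)) then 1 else 0 := by
    unfold slot
    rw [fin3_add21, fin3_add22]
  have hs0 : slot φ G i = if G.Adj (φ (i + 1)) (φ (i + 2)) then 1 else 0 := rfl
  have hl := last_mem_matOf φ G i
  rw [h3, h4, h2, h5, hs0, hs1, hs2]
  by_cases hA : G.Adj (φ (i + 1)) (φ (i + 2))
  · have hl' : Fin.last n ∉ matOf φ G i := fun h => (hl.mp h) hA
    rw [if_neg hl', if_pos hA]
    omega
  · have hl' : Fin.last n ∈ matOf φ G i := hl.mpr hA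
    rw [if_pos hl', if_neg hA]
    omega

/-- the last column of the matrix of a graph -/
lemma last_col_identity (φ : Fin 3 ↪ Fin n) (G : SimpleGraph (Fin n)) :
    colSum (matOf φ G) (Fin.last n) + eint φ G = 3 := by
  unfold colSum eint
  have h1 : (univ.filter (fun i => Fin.last n ∈ matOf φ G i)).card
      = ∑ i : Fin 3, (if Fin.last n ∈ matOf φ G i then 1 else 0) := by
    rw [Finset.sum_boole]
    simp
  rw [h1, ← Finset.sum_add_distrib]
  have h2 : ∀ i : Fin 3, (if Fin.last n ∈ matOf φ G i then 1 else 0) + slot φ G i = 1 := by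
    intro i
    have hl := last_mem_matOf φ G i
    unfold slot
    by_cases hA : G.Adj (φ (i + 1)) (φ (i + 2))
    · have hl' : Fin.last n ∉ matOf φ G i := fun h => (hl.mp h) hA
      rw [if_neg hl', if_pos hA]
    · have hl' : Fin.last n ∈ matOf φ G i := hl.mpr hA
      rw [if_pos hl', if_neg hA]
  rw [Finset.sum_congr rfl (fun i _ => h2 i)]
  simp

/-- the real columns of the matrix of a graph -/
lemma real_col_identity (φ : Fin 3 ↪ Fin n) (G : SimpleGraph (Fin n)) {w : Fin n}
    (hw : w ∉ tri φ) :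
    colSum (matOf φ G) (Fin.castSucc w) + ((tri φ)ᶜ.filter (G.Adj w)).card = G.degree w := by
  rw [degree_eq_in_add_out (tri φ) G w, card_filter_tri]
  congr 1
  unfold colSum
  have h : (univ.filter (fun i => Fin.castSucc w ∈ matOf φ G i))
      = univ.filter (fun i : Fin 3 => G.Adj w (φ i)) := by
    ext i
    simp only [mem_filter, mem_univ, true_and, castSucc_mem_matOf]
    constructor
    · rintro ⟨-, h⟩
      exact h.symm
    · intro h
      exact ⟨hw, h.symm⟩
  rw [h, Finset.sum_boole]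
  simp

/-- the columns of the triple are empty -/
lemma tri_col_zero (φ : Fin 3 ↪ Fin n) (G : SimpleGraph (Fin n)) {w : Fin n} (hw : w ∈ tri φ) :
    colSum (matOf φ G) (Fin.castSucc w) = 0 := by
  unfold colSum
  rw [Finset.card_eq_zero, Finset.filter_eq_empty_iff]
  intro i _ h
  exact ((castSucc_mem_matOf φ G i w).mp h).1 hw

lemma colSum_castSucc_eq (φ : Fin 3 ↪ Fin n) (G G0 : SimpleGraph (Fin n))
    (hd : ∀ v, G.degree v = G0.degree v)
    (hG : ∀ a b, a ∉ tri φ → b ∉ tri φ → (G.Adj a b ↔ G0.Adj a b)) (w : Fin n) :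
    colSum (matOf φ G) (Fin.castSucc w) = colSum (matOf φ G0) (Fin.castSucc w) := by
  by_cases hw : w ∈ tri φ
  · rw [tri_col_zero φ G hw, tri_col_zero φ G0 hw]
  · have h1 := real_col_identity φ G hw
    have h2 := real_col_identity φ G0 hw
    have h3 : (tri φ)ᶜ.filter (G.Adj w) = (tri φ)ᶜ.filter (G0.Adj w) := by
      apply Finset.filter_congr
      intro b hb
      exact hG w b hw (mem_compl.mp hb)
    rw [h3, hd w] at h1
    omega

lemma eint_key (φ : Fin 3 ↪ Fin n) (G : SimpleGraph (Fin n)) :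
    (∑ w : Fin n, colSum (matOf φ G) (Fin.castSucc w)) + 2 * eint φ G
      = ∑ i : Fin 3, G.degree (φ i) := by
  have h1 : ∑ i : Fin 3, ((matOf φ G i).card + eint φ G) = ∑ i : Fin 3, (G.degree (φ i) + 1) :=
    Finset.sum_congr rfl (fun i _ => row_identity φ G i)
  rw [Finset.sum_add_distrib, Finset.sum_add_distrib, sum_card_rows, Fin.sum_univ_castSucc] at h1
  simp only [Finset.sum_const, Finset.card_univ, Fintype.card_fin, smul_eq_mul] at h1
  have h2 := last_col_identity φ G
  omega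

/-- the number of internal edges is constant on the class -/
lemma eint_eq (φ : Fin 3 ↪ Fin n) (G G0 : SimpleGraph (Fin n))
    (hd : ∀ v, G.degree v = G0.degree v)
    (hG : ∀ a b, a ∉ tri φ → b ∉ tri φ → (G.Adj a b ↔ G0.Adj a b)) :
    eint φ G = eint φ G0 := by
  have k1 := eint_key φ G
  have k2 := eint_key φ G0
  have h3 : ∑ w : Fin n, colSum (matOf φ G) (Fin.castSucc w)
      = ∑ w : Fin n, colSum (matOf φ G0) (Fin.castSucc w) :=
    Finset.sum_congr rfl (fun w _ => colSum_castSucc_eq φ G G0 hd hG w)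
  have h4 : ∑ i : Fin 3, G.degree (φ i) = ∑ i : Fin 3, G0.degree (φ i) :=
    Finset.sum_congr rfl (fun i _ => hd (φ i))
  omega

lemma card_row_eq (φ : Fin 3 ↪ Fin n) (G G0 : SimpleGraph (Fin n))
    (hd : ∀ v, G.degree v = G0.degree v)
    (hG : ∀ a b, a ∉ tri φ → b ∉ tri φ → (G.Adj a b ↔ G0.Adj a b)) (i : Fin 3) :
    (matOf φ G i).card = (matOf φ G0 i).card := by
  have h1 := row_identity φ G i
  have h2 := row_identity φ G0 i
  rw [eint_eq φ G G0 hd hG, hd (φ i)] at h1
  omega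

lemma colSum_eq (φ : Fin 3 ↪ Fin n) (G G0 : SimpleGraph (Fin n))
    (hd : ∀ v, G.degree v = G0.degree v)
    (hG : ∀ a b, a ∉ tri φ → b ∉ tri φ → (G.Adj a b ↔ G0.Adj a b)) (j : Fin (n + 1)) :
    colSum (matOf φ G) j = colSum (matOf φ G0) j := by
  rcases Fin.eq_castSucc_or_eq_last j with ⟨w, rfl⟩ | rfl
  · exact colSum_castSucc_eq φ G G0 hd hG w
  · have h1 := last_col_identity φ G
    have h2 := last_col_identity φ G0
    rw [eint_eq φ G G0 hd hG] at h1
    omega

lemma tri_cols_empty (φ : Fin 3 ↪ Fin n) (G0 : SimpleGraph (Fin n)) (z : Mat 3 (n + 1))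
    (hc : ∀ j, colSum z j = colSum (matOf φ G0) j) :
    ∀ i w, w ∈ tri φ → Fin.castSucc w ∉ z i := by
  intro i w hw h
  have h1 := hc (Fin.castSucc w)
  rw [tri_col_zero φ G0 hw] at h1
  unfold colSum at h1
  rw [Finset.card_eq_zero, Finset.filter_eq_empty_iff] at h1
  exact h1 (mem_univ i) h

/-- the graph of a matrix with the margins of the matrix of `G0` has the degrees of `G0` -/
lemma degree_grOf (φ : Fin 3 ↪ Fin n) (G0 : SimpleGraph (Fin n)) (z : Mat 3 (n + 1))
    (hr : ∀ i, (z i).card = (matOf φ G0 i).card)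
    (hc : ∀ j, colSum z j = colSum (matOf φ G0) j) (v : Fin n) :
    (grOf φ G0 z).degree v = G0.degree v := by
  have hz := tri_cols_empty φ G0 z hc
  have hm := matOf_grOf φ G0 z hz
  by_cases hv : v ∈ tri φ
  · obtain ⟨i, rfl⟩ := (mem_tri φ v).mp hv
    have h1 := row_identity φ (grOf φ G0 z) i
    have h2 := row_identity φ G0 i
    have h3 := last_col_identity φ (grOf φ G0 z)
    have h4 := last_col_identity φ G0
    rw [hm] at h1 h3
    rw [hr i] at h1
    rw [hc (Fin.last n)] at h3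
    omega
  · have h1 := real_col_identity φ (grOf φ G0 z) hv
    have h2 := real_col_identity φ G0 hv
    rw [hm, hc] at h1
    have h3 : (tri φ)ᶜ.filter ((grOf φ G0 z).Adj v) = (tri φ)ᶜ.filter (G0.Adj v) := by
      apply Finset.filter_congr
      intro b hb
      exact grOf_adj_out φ G0 z hv (mem_compl.mp hb)
    rw [h3] at h1
    omega

end counting

section transfer

open scoped Classical

variable {n : ℕ} {d : Fin n → ℕ}

/-- row margins of the three-row system attached to the class of `G0` -/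
noncomputable def rowM (φ : Fin 3 ↪ Fin n) (G0 : Omega n d) : Fin 3 → ℕ :=
  fun i => (matOf φ G0.1 i).card

/-- column margins of the three-row system attached to the class of `G0` -/
noncomputable def colM (φ : Fin 3 ↪ Fin n) (G0 : Omega n d) : Fin (n + 1) → ℕ :=
  colSum (matOf φ G0.1)

/-- the embedding of the three-row system into the class of `G0` -/
noncomputable def iotaG (φ : Fin 3 ↪ Fin n) (G0 : Omega n d)
    (z : Om 3 (n + 1) (rowM φ G0) (colM φ G0)) : Omega n d :=
  ⟨grOf φ G0.1 z.1, fun v => by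
    rw [degree_grOf φ G0.1 z.1 z.2.1 z.2.2 v]
    exact G0.2 v⟩

lemma iotaG_val (φ : Fin 3 ↪ Fin n) (G0 : Omega n d)
    (z : Om 3 (n + 1) (rowM φ G0) (colM φ G0)) : (iotaG φ G0 z).1 = grOf φ G0.1 z.1 := rfl

lemma iotaG_cols (φ : Fin 3 ↪ Fin n) (G0 : Omega n d)
    (z : Om 3 (n + 1) (rowM φ G0) (colM φ G0)) :
    ∀ i w, w ∈ tri φ → Fin.castSucc w ∉ z.1 i :=
  tri_cols_empty φ G0.1 z.1 z.2.2

lemma matOf_iotaG (φ : Fin 3 ↪ Fin n) (G0 : Omega n d)
    (z : Om 3 (n + 1) (rowM φ G0) (colM φ G0)) : matOf φ (iotaG φ G0 z).1 = z.1 :=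
  matOf_grOf φ G0.1 z.1 (iotaG_cols φ G0 z)

lemma iotaG_injective (φ : Fin 3 ↪ Fin n) (G0 : Omega n d) :
    Function.Injective (iotaG φ G0) := by
  intro z z' h
  apply Subtype.ext
  have h1 := congrArg (fun G : Omega n d => matOf φ G.1) h
  simp only [matOf_iotaG] at h1
  exact h1

lemma iotaG_agree (φ : Fin 3 ↪ Fin n) (G0 : Omega n d)
    (z : Om 3 (n + 1) (rowM φ G0) (colM φ G0)) {a b : Fin n} (ha : a ∉ tri φ)
    (hb : b ∉ tri φ) : (iotaG φ G0 z).1.Adj a b ↔ G0.1.Adj a b :=
  grOf_adj_out φ G0.1 z.1 ha hb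

lemma exists_iotaG_eq (φ : Fin 3 ↪ Fin n) (G0 G : Omega n d)
    (hG : ∀ a b, a ∉ tri φ → b ∉ tri φ → (G.1.Adj a b ↔ G0.1.Adj a b)) :
    ∃ z, iotaG φ G0 z = G := by
  have hd : ∀ v, G.1.degree v = G0.1.degree v := fun v => (G.2 v).trans (G0.2 v).symm
  refine ⟨⟨matOf φ G.1, fun i => card_row_eq φ G.1 G0.1 hd hG i,
    fun j => colSum_eq φ G.1 G0.1 hd hG j⟩, ?_⟩
  apply Subtype.ext
  exact grOf_matOf φ G0.1 G.1 hG

/-- two rows with the same cardinality and the same real entries are equal -/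
lemma row_eq_of_real (s s' : Finset (Fin (n + 1))) (hcard : s.card = s'.card)
    (h : ∀ w : Fin n, Fin.castSucc w ∈ s' ↔ Fin.castSucc w ∈ s) : s' = s := by
  have h1 := card_split s
  have h2 := card_split s'
  have h3 : (univ.filter (fun w : Fin n => Fin.castSucc w ∈ s'))
      = (univ.filter (fun w : Fin n => Fin.castSucc w ∈ s)) :=
    Finset.filter_congr (fun w _ => h w)
  rw [h3] at h2
  have h4 : (Fin.last n ∈ s' ↔ Fin.last n ∈ s) := by
    by_cases ha : Fin.last n ∈ s
    · by_cases hb : Fin.last n ∈ s'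
      · exact ⟨fun _ => ha, fun _ => hb⟩
      · rw [if_pos ha] at h1
        rw [if_neg hb] at h2
        omega
    · by_cases hb : Fin.last n ∈ s'
      · rw [if_neg ha] at h1
        rw [if_pos hb] at h2
        omega
      · exact ⟨fun h' => absurd h' hb, fun h' => absurd h' ha⟩
  ext j
  rcases Fin.eq_castSucc_or_eq_last j with ⟨w, rfl⟩ | rfl
  · exact h w
  · exact h4

lemma not_mem_map_of_not_mem_tri (φ : Fin 3 ↪ Fin n) (q : Finset (Fin 3)) {a : Fin n}
    (ha : a ∉ tri φ) : a ∉ q.map φ := by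
  intro h
  apply ha
  obtain ⟨j, -, rfl⟩ := mem_map.mp h
  exact apply_mem_tri φ j

/-- resampling the vertex pair `φ '' q` corresponds to resampling the rows in `q`
(`q` the complement of `{i}`) -/
lemma adj_iff_mask_pair (φ : Fin 3 ↪ Fin n) (G0 : Omega n d) (q : Finset (Fin 3)) (i : Fin 3)
    (hq : ∀ j, j ∉ q ↔ j = i) (z z' : Om 3 (n + 1) (rowM φ G0) (colM φ G0)) :
    (∀ a b, a ∉ q.map φ → b ∉ q.map φ →
        ((iotaG φ G0 z').1.Adj a b ↔ (iotaG φ G0 z).1.Adj a b))
      ↔ mask q z'.1 = mask q z.1 := by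
  rw [mask_eq_iff]
  have hφi : φ i ∉ q.map φ := by
    intro h
    rw [mem_map' φ] at h
    exact (hq i).mpr rfl h
  constructor
  · intro h j hj
    rw [(hq j).mp hj]
    apply row_eq_of_real
    · rw [z.2.1 i, z'.2.1 i]
    · intro w
      by_cases hw : w ∈ tri φ
      · constructor
        · intro h'
          exact absurd h' (iotaG_cols φ G0 z' i w hw)
        · intro h'
          exact absurd h' (iotaG_cols φ G0 z i w hw)
      · have h2 := h (φ i) w hφi (not_mem_map_of_not_mem_tri φ q hw)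
        rw [iotaG_val, iotaG_val, grOf_adj_row φ G0.1 z'.1 i hw,
          grOf_adj_row φ G0.1 z.1 i hw] at h2
        exact h2
  · intro h a b ha hb
    have hrow : z'.1 i = z.1 i := h i ((hq i).mpr rfl)
    by_cases ha' : a ∈ tri φ
    · obtain ⟨j, rfl⟩ := (mem_tri φ a).mp ha'
      have hj : j = i := (hq j).mp (fun hjq => ha (mem_map_of_mem φ hjq))
      rw [hj]
      by_cases hb' : b ∈ tri φ
      · obtain ⟨k, rfl⟩ := (mem_tri φ b).mp hb'
        have hk : k = i := (hq k).mp (fun hkq => hb (mem_map_of_mem φ hkq))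
        rw [hk]
        constructor
        · intro h'
          exact absurd h' (SimpleGraph.irrefl _)
        · intro h'
          exact absurd h' (SimpleGraph.irrefl _)
      · rw [iotaG_val, iotaG_val, grOf_adj_row φ G0.1 z'.1 i hb',
          grOf_adj_row φ G0.1 z.1 i hb', hrow]
    · by_cases hb' : b ∈ tri φ
      · obtain ⟨k, rfl⟩ := (mem_tri φ b).mp hb'
        have hk : k = i := (hq k).mp (fun hkq => hb (mem_map_of_mem φ hkq))
        rw [hk, SimpleGraph.adj_comm, SimpleGraph.adj_comm (iotaG φ G0 z).1, iotaG_val,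
          iotaG_val, grOf_adj_row φ G0.1 z'.1 i ha', grOf_adj_row φ G0.1 z.1 i ha', hrow]
      · rw [iotaG_agree φ G0 z' ha' hb', iotaG_agree φ G0 z ha' hb']

/-- resampling the whole triple corresponds to resampling all three rows -/
lemma adj_iff_mask_univ (φ : Fin 3 ↪ Fin n) (G0 : Omega n d)
    (z z' : Om 3 (n + 1) (rowM φ G0) (colM φ G0)) :
    (∀ a b, a ∉ (univ : Finset (Fin 3)).map φ → b ∉ (univ : Finset (Fin 3)).map φ →
        ((iotaG φ G0 z').1.Adj a b ↔ (iotaG φ G0 z).1.Adj a b))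
      ↔ mask univ z'.1 = mask univ z.1 := by
  rw [mask_eq_iff]
  constructor
  · intro _ j hj
    exact absurd (mem_univ j) hj
  · intro _ a b ha hb
    rw [iotaG_agree φ G0 z' ha hb, iotaG_agree φ G0 z ha hb]

/-- the class of `iotaG φ G0 z` for the resampling of `φ '' q` -/
lemma class_iff (φ : Fin 3 ↪ Fin n) (G0 : Omega n d) {K : Type*}
    (κ : Finset (Fin n) → Omega n d → K)
    (hκ : ∀ (p : Finset (Fin n)) (G G' : Omega n d), κ p G = κ p G' ↔
      ∀ a b, a ∉ p → b ∉ p → (G.1.Adj a b ↔ G'.1.Adj a b))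
    (q : Finset (Fin 3))
    (hq : ∀ z z' : Om 3 (n + 1) (rowM φ G0) (colM φ G0),
      (∀ a b, a ∉ q.map φ → b ∉ q.map φ →
        ((iotaG φ G0 z').1.Adj a b ↔ (iotaG φ G0 z).1.Adj a b))
      ↔ mask q z'.1 = mask q z.1)
    (z : Om 3 (n + 1) (rowM φ G0) (colM φ G0)) (G : Omega n d) :
    κ (q.map φ) G = κ (q.map φ) (iotaG φ G0 z)
      ↔ ∃ z', mask q z'.1 = mask q z.1 ∧ iotaG φ G0 z' = G := by
  constructor
  · intro h
    have h1 := (hκ _ _ _).mp h
    have hG : ∀ a b, a ∉ tri φ → b ∉ tri φ → (G.1.Adj a b ↔ G0.1.Adj a b) := by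
      intro a b ha hb
      rw [h1 a b (not_mem_map_of_not_mem_tri φ q ha) (not_mem_map_of_not_mem_tri φ q hb)]
      exact iotaG_agree φ G0 z ha hb
    obtain ⟨z', rfl⟩ := exists_iotaG_eq φ G0 G hG
    exact ⟨z', (hq z z').mp h1, rfl⟩
  · rintro ⟨z', hz', rfl⟩
    exact (hκ _ _ _).mpr ((hq z z').mpr hz')

/-- the class of `G0` for the resampling of the whole triple -/
lemma class_tri_iff (φ : Fin 3 ↪ Fin n) (G0 : Omega n d) {K : Type*}
    (κ : Finset (Fin n) → Omega n d → K)
    (hκ : ∀ (p : Finset (Fin n)) (G G' : Omega n d), κ p G = κ p G' ↔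
      ∀ a b, a ∉ p → b ∉ p → (G.1.Adj a b ↔ G'.1.Adj a b)) (G : Omega n d) :
    κ ((univ : Finset (Fin 3)).map φ) G = κ ((univ : Finset (Fin 3)).map φ) G0
      ↔ ∃ z, iotaG φ G0 z = G := by
  constructor
  · intro h
    exact exists_iotaG_eq φ G0 G ((hκ _ _ _).mp h)
  · rintro ⟨z, rfl⟩
    exact (hκ _ _ _).mpr (fun a b ha hb => iotaG_agree φ G0 z ha hb)

end transfer

open scoped Classical in
/-- **Vertex triples.**  The three-row inequality of the margin systems transfers to every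
vertex triple of the graphs with a prescribed degree vector: if `κ p` is any map whose classes
are the graphs with the same edges on the pairs of vertices outside `p` (so `cexp (κ p)` is the
resampling of all edges meeting `p`), then for every set `T` of three vertices the sum over the
three pairs `p` inside `T` of `⟨f, cexp (κ p) f⟩` is at most `2 ⟨f, f⟩ + ⟨f, cexp (κ T) f⟩`. -/
theorem graph_triple {K : Type*} [DecidableEq K]
    (h3 : ∀ (N : ℕ) (r : Fin 3 → ℕ) (c : Fin N → ℕ) (g : Om 3 N r c → ℝ),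
      ∑ q ∈ (univ : Finset (Fin 3)).powersetCard 2, ip g (R q g) ≤ 2 * ip g g + ip g (R univ g))
    {n : ℕ} {d : Fin n → ℕ} (κ : Finset (Fin n) → Omega n d → K)
    (hκ : ∀ (p : Finset (Fin n)) (G G' : Omega n d), κ p G = κ p G' ↔
      ∀ a b, a ∉ p → b ∉ p → (G.1.Adj a b ↔ G'.1.Adj a b))
    (T : Finset (Fin n)) (hT : T.card = 3) (f : Omega n d → ℝ) :
    ∑ p ∈ T.powersetCard 2, ip f (cexp (κ p) f) ≤ 2 * ip f f + ip f (cexp (κ T) f) := by
  obtain ⟨φ, rfl⟩ : ∃ φ : Fin 3 ↪ Fin n, (univ : Finset (Fin 3)).map φ = T :=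
    ⟨(T.orderEmbOfFin hT).toEmbedding, map_orderEmbOfFin_univ T hT⟩
  have hL : ∑ p ∈ ((univ : Finset (Fin 3)).map φ).powersetCard 2, ip f (cexp (κ p) f)
      = ∑ x, ∑ p ∈ ((univ : Finset (Fin 3)).map φ).powersetCard 2, f x * cexp (κ p) f x := by
    unfold ip
    rw [Finset.sum_comm]
  have hR : 2 * ip f f + ip f (cexp (κ ((univ : Finset (Fin 3)).map φ)) f)
      = ∑ x, (2 * (f x * f x) + f x * cexp (κ ((univ : Finset (Fin 3)).map φ)) f x) := by
    unfold ip
    rw [Finset.sum_add_distrib, Finset.mul_sum]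
  rw [hL, hR]
  apply sum_le_sum_of_classes (κ ((univ : Finset (Fin 3)).map φ))
  intro G0
  have hclT := class_tri_iff φ G0 κ hκ
  rw [sum_class _ (iotaG φ G0) (iotaG_injective φ G0) G0 hclT,
    sum_class _ (iotaG φ G0) (iotaG_injective φ G0) G0 hclT]
  have key := h3 (n + 1) (rowM φ G0) (colM φ G0) (fun z => f (iotaG φ G0 z))
  unfold ip at key
  rw [Finset.sum_comm] at key
  have e1 : ∀ z, ∑ p ∈ ((univ : Finset (Fin 3)).map φ).powersetCard 2,
        f (iotaG φ G0 z) * cexp (κ p) f (iotaG φ G0 z)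
      = ∑ q ∈ (univ : Finset (Fin 3)).powersetCard 2,
        f (iotaG φ G0 z) * R q (fun z' => f (iotaG φ G0 z')) z := by
    intro z
    rw [powersetCard_map, Finset.sum_map]
    refine Finset.sum_congr rfl (fun q hq => ?_)
    simp only [RelEmbedding.coe_toEmbedding, mapEmbedding_apply]
    congr 1
    obtain ⟨i, hi⟩ := fin3_pairs q (mem_powersetCard.mp hq).2
    exact cexp_transfer (κ (q.map φ))
      (fun x : Om 3 (n + 1) (rowM φ G0) (colM φ G0) => mask q x.1) (iotaG φ G0)
      (iotaG_injective φ G0) z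
      (fun G => class_iff φ G0 κ hκ q (adj_iff_mask_pair φ G0 q i hi) z G) f
  have e2 : ∀ z, 2 * (f (iotaG φ G0 z) * f (iotaG φ G0 z))
        + f (iotaG φ G0 z) * cexp (κ ((univ : Finset (Fin 3)).map φ)) f (iotaG φ G0 z)
      = 2 * (f (iotaG φ G0 z) * f (iotaG φ G0 z))
        + f (iotaG φ G0 z) * R univ (fun z' => f (iotaG φ G0 z')) z := by
    intro z
    congr 2
    exact cexp_transfer (κ ((univ : Finset (Fin 3)).map φ))
      (fun x : Om 3 (n + 1) (rowM φ G0) (colM φ G0) => mask univ x.1) (iotaG φ G0)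
      (iotaG_injective φ G0) z
      (fun G => class_iff φ G0 κ hκ univ (adj_iff_mask_univ φ G0) z G) f
  simp only [e1, e2]
  rw [Finset.sum_add_distrib, ← Finset.mul_sum]
  exact key

section example_kappa

open scoped Classical

variable {n : ℕ} {d : Fin n → ℕ}

/-- a concrete fibre map: the set of ordered adjacent pairs of `G` that avoid `p` -/
def gkap (p : Finset (Fin n)) (G : Omega n d) : Set (Fin n × Fin n) :=
  {e | e.1 ∉ p ∧ e.2 ∉ p ∧ G.1.Adj e.1 e.2}

lemma gkap_iff (p : Finset (Fin n)) (G G' : Omega n d) :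
    gkap p G = gkap p G' ↔ ∀ a b, a ∉ p → b ∉ p → (G.1.Adj a b ↔ G'.1.Adj a b) := by
  constructor
  · intro h a b ha hb
    have h1 : (a, b) ∈ gkap p G ↔ (a, b) ∈ gkap p G' := by rw [h]
    constructor
    · intro hab
      exact (h1.mp ⟨ha, hb, hab⟩).2.2
    · intro hab
      exact (h1.mpr ⟨ha, hb, hab⟩).2.2
  · intro h
    ext e
    constructor
    · rintro ⟨h1, h2, h3⟩
      exact ⟨h1, h2, (h e.1 e.2 h1 h2).mp h3⟩
    · rintro ⟨h1, h2, h3⟩
      exact ⟨h1, h2, (h e.1 e.2 h1 h2).mpr h3⟩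

/-- the vertex triple inequality for the concrete fibre map `gkap` -/
theorem graph_triple_gkap
    (h3 : ∀ (N : ℕ) (r : Fin 3 → ℕ) (c : Fin N → ℕ) (g : Om 3 N r c → ℝ),
      ∑ q ∈ (univ : Finset (Fin 3)).powersetCard 2, ip g (R q g) ≤ 2 * ip g g + ip g (R univ g))
    (T : Finset (Fin n)) (hT : T.card = 3) (f : Omega n d → ℝ) :
    ∑ p ∈ T.powersetCard 2, ip f (cexp (gkap p) f) ≤ 2 * ip f f + ip f (cexp (gkap T) f) :=
  graph_triple h3 gkap gkap_iff T hT f

end example_kappa

end Vale.Agent.Lib.P335.H98
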